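import Mathlib
import Vale.Agent.P037.Defs
import Vale.Agent.P037.Count

/-!
The polynomial removal bound fails for an explicit ordered binary pattern.
-/

namespace Vale.Agent.Results.P037.RemovalConjectureFalse

open Vale.Agent.P037 Filter

theorem result :
    ∃ (k : ℕ) (H : Fin k → Fin k → Bool),
      ¬ ∃ c : ℝ, 0 < c ∧ ∃ C : ℝ, 0 < C ∧
        ∀ n : ℕ, 1 ≤ n → ∀ ε : ℝ, 0 < ε → ε < 1 → ∀ A : Fin n → Fin n → Bool,
          ε ≤ distFree H A → c * ε ^ C * (n : ℝ) ^ (2 * k) ≤ (copyCount H A : ℝ) := by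
  refine ⟨5, pat, ?_⟩
  rintro ⟨c, hc, C, hC, h⟩
  set m := ⌈C⌉₊ with hm
  have hlim : Tendsto (fun D : ℕ => (D : ℝ) ^ (2 * m) / (2 : ℝ) ^ D) atTop (nhds 0) :=
    tendsto_pow_const_div_const_pow_of_one_lt _ (by norm_num)
  have hpos : 0 < c / (4 * 21 ^ (2 * m)) / 2 := by positivity
  obtain ⟨D, hD1, hD⟩ :=
    ((eventually_ge_atTop 1).and (hlim.eventually_le_const hpos)).exists
  set M : ℝ := ((14 * D + 7 : ℕ) : ℝ) with hM
  have hM1 : 21 ≤ M := by rw [hM]; exact_mod_cast (show 21 ≤ 14 * D + 7 by omega)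
  have hM21 : M ≤ 21 * D := by rw [hM]; exact_mod_cast (show 14 * D + 7 ≤ 21 * D by omega)
  set ε : ℝ := 1 / M ^ 2 with hε
  have he0 : 0 < ε := by positivity
  have he1 : ε < 1 := by rw [hε, div_lt_one (by positivity)]; nlinarith
  have hs1 : 1 ≤ side D := Nat.mul_pos (by omega) (Nat.two_pow_pos D)
  have hkey := (h (side D) hs1 ε he0 he1 (hard D) (dist_hard hD1)).trans (few_copies D)
  have hs : (0 : ℝ) < (side D : ℝ) ^ 10 := by
    have : (1 : ℝ) ≤ side D := by exact_mod_cast hs1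
    positivity
  have h1 : c * ε ^ C ≤ 4 / (2 : ℝ) ^ D := le_of_mul_le_mul_right hkey hs
  have h2 : ε ^ m ≤ ε ^ C := by
    rw [← Real.rpow_natCast]
    exact Real.rpow_le_rpow_of_exponent_ge he0 he1.le (Nat.le_ceil C)
  have h3 : c * ε ^ m ≤ 4 / (2 : ℝ) ^ D :=
    (mul_le_mul_of_nonneg_left h2 hc.le).trans h1
  rw [hε, div_pow, one_pow, ← pow_mul, mul_one_div, div_le_iff₀ (by positivity)] at h3
  have h4 : 4 / (2 : ℝ) ^ D * M ^ (2 * m) ≤ 4 * 21 ^ (2 * m) * ((D : ℝ) ^ (2 * m) / 2 ^ D) := by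
    refine (mul_le_mul_of_nonneg_left (pow_le_pow_left₀ (by linarith) hM21 (2 * m))
      (by positivity)).trans (le_of_eq ?_)
    rw [mul_pow]; ring
  have h5 := mul_le_mul_of_nonneg_left hD (show (0 : ℝ) ≤ 4 * 21 ^ (2 * m) by positivity)
  have h6 : 4 * (21 : ℝ) ^ (2 * m) * (c / (4 * 21 ^ (2 * m)) / 2) = c / 2 := by
    field_simp
  linarith

end Vale.Agent.Results.P037.RemovalConjectureFalse
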